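import Vale.Agent.P251.S.TensorShift
import Mathlib.Algebra.Ring.NegOnePow

/-!
# P241, block YK: the braiding of a sphere with itself

`isSgn_sphere` : the braiding of `𝟙⟦n⟧ ⊗ 𝟙⟦n⟧` is `(-1) ^ n`.
-/

open CategoryTheory MonoidalCategory Limits

universe v u

namespace Vale.Agent.P241.H568

section

variable {C : Type u} [Category.{v} C] [Preadditive C] [MonoidalCategory C]
  [SymmetricCategory C]

/-- the braiding of `X` with itself is the multiplication by `ε` -/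
def IsSgn (ε : ℤ) (X : C) : Prop := (β_ X X).hom = ε • 𝟙 (X ⊗ X)

theorem IsSgn.iso {ε : ℤ} {X Y : C} (h : IsSgn ε X) (e : X ≅ Y) : IsSgn ε Y := by
  unfold IsSgn at *
  have h1 := BraidedCategory.braiding_naturality e.inv e.inv
  rw [h] at h1
  rw [← cancel_mono (e.inv ⊗ₘ e.inv), ← h1, Preadditive.comp_zsmul, Preadditive.zsmul_comp,
    Category.comp_id, Category.id_comp]

theorem isSgn_unit : IsSgn 1 (𝟙_ C) := by
  unfold IsSgn
  rw [braiding_tensorUnit_left, unitors_equal, Iso.hom_inv_id, one_zsmul]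

variable [MonoidalPreadditive C]

omit [SymmetricCategory C] in
theorem zsmul_tensor_zsmul (m n : ℤ) {X Y X' Y' : C} (f : X ⟶ Y) (g : X' ⟶ Y') :
    ((m • f) ⊗ₘ (n • g)) = (m * n) • (f ⊗ₘ g) := by
  have h1 : ∀ (m : ℤ) (f : X ⟶ Y) (g : X' ⟶ Y'), ((m • f) ⊗ₘ g) = m • (f ⊗ₘ g) := fun m f g =>
    map_zsmul (AddMonoidHom.mk' (fun f : X ⟶ Y => f ⊗ₘ g)
      (fun _ _ => MonoidalPreadditive.add_tensor _ _ _)) m f
  have h2 : ∀ (m : ℤ) (f : X ⟶ Y) (g : X' ⟶ Y'), (f ⊗ₘ (m • g)) = m • (f ⊗ₘ g) := fun m f g =>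
    map_zsmul (AddMonoidHom.mk' (fun g : X' ⟶ Y' => f ⊗ₘ g)
      (fun _ _ => MonoidalPreadditive.tensor_add _ _ _)) m g
  rw [h1, h2, smul_smul]

theorem IsSgn.tensor {ε δ : ℤ} {X Y : C} (hX : IsSgn ε X) (hY : IsSgn δ Y) :
    IsSgn (ε * δ) (X ⊗ Y) := by
  unfold IsSgn at *
  have h := SymmetricCategory.tensorμ_braid_swap X Y
  rw [hX, hY, zsmul_tensor_zsmul, id_tensorHom_id, Preadditive.zsmul_comp, Category.id_comp] at h
  have h2 := congrArg (fun f => tensorδ X X Y Y ≫ f) h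
  simp only [tensorδ_tensorμ_assoc, Preadditive.comp_zsmul, tensorδ_tensorμ] at h2
  exact h2

theorem IsSgn.of_tensor {η δ : ℤ} {X L : C} (h : IsSgn η (X ⊗ L)) (hL : IsSgn δ L)
    (hδ : δ * δ = 1)
    (hf : ∀ f g : X ⊗ X ⟶ X ⊗ X, f ▷ (L ⊗ L) = g ▷ (L ⊗ L) → f = g) : IsSgn (η * δ) X := by
  unfold IsSgn at *
  have h1 := SymmetricCategory.tensorμ_braid_swap X L
  rw [h, hL] at h1
  have h2 := congrArg (fun f => f ≫ tensorδ X X L L) h1
  simp only [Preadditive.comp_zsmul, Preadditive.zsmul_comp, Category.comp_id, Category.assoc,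
    tensorμ_tensorδ] at h2
  -- `η • 𝟙 = β ⊗ (δ • 𝟙)`
  apply hf
  have h3 : (β_ X X).hom ⊗ₘ (δ • 𝟙 (L ⊗ L)) = δ • ((β_ X X).hom ▷ (L ⊗ L)) := by
    have := zsmul_tensor_zsmul 1 δ (β_ X X).hom (𝟙 (L ⊗ L))
    rwa [one_zsmul, one_mul, tensorHom_id] at this
  have h4 : ((η * δ) • 𝟙 (X ⊗ X)) ▷ (L ⊗ L) = (η * δ) • 𝟙 ((X ⊗ X) ⊗ (L ⊗ L)) := by
    have := zsmul_tensor_zsmul (η * δ) 1 (𝟙 (X ⊗ X)) (𝟙 (L ⊗ L))
    rwa [one_zsmul, mul_one, tensorHom_id, id_tensorHom_id] at this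
  rw [h3] at h2
  rw [h4, mul_comm, mul_smul, h2, smul_smul, hδ, one_zsmul]

end

section

open Pretriangulated Vale.Agent.P251.T Vale.Agent.P251.S

variable {T : Type u} [Category.{v} T] [Preadditive T] [HasZeroObject T] [HasShift T ℤ]
  [∀ n : ℤ, (shiftFunctor T n).Additive] [Pretriangulated T]
  [MonoidalCategory T] [SymmetricCategory T] [TensorTriangulated T]

theorem isSgn_sphere_one : IsSgn (-1) ((𝟙_ T)⟦(1 : ℤ)⟧) := by
  unfold IsSgn
  rw [TensorTriangulated.sign, neg_one_zsmul]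

/-- tensoring with spheres is faithful -/
theorem whiskerRight_sphere_injective (n : ℤ) {X Y : T} {f g : X ⟶ Y}
    (h : f ▷ ((𝟙_ T)⟦n⟧) = g ▷ ((𝟙_ T)⟦n⟧)) : f = g := by
  have hf := tensorSph_naturality n f
  have hg := tensorSph_naturality n g
  rw [h, hg] at hf
  exact (shiftFunctor T n).map_injective ((cancel_epi _).1 hf).symm

theorem whiskerRight_sphere_sphere_injective (n m : ℤ) {X Y : T} {f g : X ⟶ Y}
    (h : f ▷ (((𝟙_ T)⟦n⟧) ⊗ ((𝟙_ T)⟦m⟧)) = g ▷ (((𝟙_ T)⟦n⟧) ⊗ ((𝟙_ T)⟦m⟧))) : f = g := by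
  rw [whiskerRight_tensor, whiskerRight_tensor] at h
  have h2 := (cancel_epi _).1 h
  have h3 := (cancel_mono _).1 h2
  exact whiskerRight_sphere_injective n (whiskerRight_sphere_injective m h3)

/-- the shifted unit is a tensor product -/
noncomputable def sphereAddOne (n : ℤ) :
    ((𝟙_ T)⟦n⟧) ⊗ ((𝟙_ T)⟦(1 : ℤ)⟧) ≅ (𝟙_ T)⟦n + 1⟧ :=
  TensorTriangulated.e _ ≪≫ ((shiftFunctorAdd T n 1).app (𝟙_ T)).symm

/-- **The braiding of a sphere with itself.** -/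
theorem isSgn_sphere (n : ℤ) : IsSgn ((Int.negOnePow n : ℤˣ) : ℤ) ((𝟙_ T)⟦n⟧) := by
  induction n using Int.induction_on with
  | zero =>
    rw [Int.negOnePow_zero]
    exact isSgn_unit.iso ((shiftFunctorZero T ℤ).app (𝟙_ T)).symm
  | succ n ih =>
    have h := (ih.tensor isSgn_sphere_one).iso (sphereAddOne (T := T) n)
    rw [Int.negOnePow_succ, Units.val_neg]
    rwa [mul_neg_one] at h
  | pred n ih =>
    have h : IsSgn ((Int.negOnePow (-n) : ℤˣ) : ℤ)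
        (((𝟙_ T)⟦(-n - 1 : ℤ)⟧) ⊗ ((𝟙_ T)⟦(1 : ℤ)⟧)) := by
      refine ih.iso ?_
      refine Iso.trans ?_ (sphereAddOne (T := T) (-n - 1)).symm
      exact eqToIso (by rw [sub_add_cancel])
    have h2 := h.of_tensor isSgn_sphere_one (by norm_num)
      (fun f g hfg => whiskerRight_sphere_sphere_injective 1 1 hfg)
    rw [Int.negOnePow_sub, Int.negOnePow_one, Units.val_mul]
    simpa using h2

theorem isSgn_sphere_even {n : ℤ} (h : Even n) : IsSgn 1 ((𝟙_ T)⟦n⟧) := by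
  have := isSgn_sphere (T := T) n
  rwa [Int.negOnePow_even n h] at this

theorem isSgn_sphere_odd {n : ℤ} (h : Odd n) : IsSgn (-1) ((𝟙_ T)⟦n⟧) := by
  have := isSgn_sphere (T := T) n
  rwa [Int.negOnePow_odd n h] at this

end

end Vale.Agent.P241.H568
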