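import Vale.Agent.P241.H963.Lax
import Vale.Agent.P241.H568.Words
import Vale.Agent.P241.H568.Sign
import Vale.Agent.P241.H169.YComb

/-!
# P241, block YK: the Young symmetrizer on powers, from the filtered comparison with words

`X : tpow W m ⟶ K ⊗ tpow P m` is a morphism whose left `K`-linear extension is an isomorphism,
`W` is the direct sum of the letters `A j`; the hypothesis `FiltCmp` says that `X` commutes with
the permutations up to words of larger weight. An element `Y` of the group algebra with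
`Y * Y = n • Y` which acts as `0` on `tpow W m` acts as `0` on `K ⊗ tpow P m` (`FiltCmp.kill`); if it
acts as `0` on `K ⊗ tpow P m` then its coefficients between words with letters of braiding `1`
vanish (`FiltCmp.survive`).
-/

open CategoryTheory MonoidalCategory Equiv

universe v u

namespace Vale.Agent.P241.H568

open Vale.Agent.P093.Cox Vale.Agent.P093.SymPow Vale.Agent.P241.YK Vale.Agent.P251.M

/-! ### strictly triangular endomorphisms -/

section Tri

variable {C : Type u} [Category.{v} C] [Preadditive C] {ι : Type*} [Fintype ι] {A : ι → C}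
  {V : C} (d : Dec A V)

/-- `n`-fold composition -/
def iter (N : V ⟶ V) : ℕ → (V ⟶ V)
  | 0 => 𝟙 V
  | k + 1 => iter N k ≫ N

theorem iter_prj_eq_zero {N : V ⟶ V} {g : ι → ℕ}
    (hN : ∀ w u, g u ≤ g w → d.inj w ≫ N ≫ d.prj u = 0) (k : ℕ) :
    ∀ w u, g u < g w + k → d.inj w ≫ iter N k ≫ d.prj u = 0 := by
  induction k with
  | zero =>
    intro w u h
    change d.inj w ≫ 𝟙 V ≫ d.prj u = 0
    rw [Category.id_comp]
    refine d.inj_prj_ne fun hc => ?_
    subst hc
    omega
  | succ k ih =>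
    intro w u h
    change d.inj w ≫ (iter N k ≫ N) ≫ d.prj u = 0
    have h1 : iter N k = ∑ v, (iter N k ≫ d.prj v) ≫ d.inj v := (d.sum_prj_inj _).symm
    rw [h1, Preadditive.sum_comp, Preadditive.sum_comp, Preadditive.comp_sum]
    refine Finset.sum_eq_zero fun v _ => ?_
    by_cases hv : g v < g w + k
    · have := ih w v hv
      simp only [Category.assoc]
      rw [reassoc_of% this, Limits.zero_comp]
    · simp only [Category.assoc]
      rw [hN v u (by omega)]
      simp only [Limits.comp_zero]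

theorem iter_eq_zero {N : V ⟶ V} {g : ι → ℕ}
    (hN : ∀ w u, g u ≤ g w → d.inj w ≫ N ≫ d.prj u = 0) :
    ∃ k, iter N k = 0 := by
  refine ⟨(∑ w, g w) + 1, ?_⟩
  apply d.hom_ext
  intro w
  apply d.hom_ext'
  intro u
  rw [Category.assoc, iter_prj_eq_zero d hN _ w u, Limits.comp_zero, Limits.zero_comp]
  have : g u ≤ ∑ w, g w := Finset.single_le_sum (f := g) (fun _ _ => Nat.zero_le _)
    (Finset.mem_univ u)
  omega

theorem iter_eq_smul {N : V ⟶ V} {n : ℤ} (h : N ≫ N = n • N) (k : ℕ) :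
    iter N (k + 1) = n ^ k • N := by
  induction k with
  | zero =>
    rw [pow_zero, one_zsmul]
    exact Category.id_comp N
  | succ k ih =>
    change iter N (k + 1) ≫ N = _
    rw [ih, Preadditive.zsmul_comp, h, smul_smul, pow_succ]

/-- a strictly triangular endomorphism with `N ≫ N = n • N`, `n` invertible, vanishes -/
theorem eq_zero_of_tri {N : V ⟶ V} {g : ι → ℕ}
    (hN : ∀ w u, g u ≤ g w → d.inj w ≫ N ≫ d.prj u = 0) {n : ℤ} (h : N ≫ N = n • N)
    (hn : ∀ f : V ⟶ V, n • f = 0 → f = 0) : N = 0 := by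
  obtain ⟨k, hk⟩ := iter_eq_zero d hN
  have h1 : n ^ k • N = 0 := by
    rw [← iter_eq_smul h]
    change iter N k ≫ N = 0
    rw [hk, Limits.zero_comp]
  clear hk
  induction k with
  | zero => rwa [pow_zero, one_zsmul] at h1
  | succ k ih =>
    rw [pow_succ', mul_smul] at h1
    exact ih (hn _ h1)

end Tri

/-! ### the word decomposition tensored with an object -/

section Whisker

variable {C : Type u} [Category.{v} C] [Preadditive C] [MonoidalCategory C]
  [MonoidalPreadditive C] {ι : Type*} [Fintype ι] {A : ι → C} {W : C}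

/-- tensoring a direct sum on the left -/
@[simps]
def Dec.tens (d : Dec A W) (K : C) : Dec (fun j => K ⊗ A j) (K ⊗ W) where
  inj j := K ◁ d.inj j
  prj j := K ◁ d.prj j
  inj_prj j := by rw [← whiskerLeft_comp, d.inj_prj, whiskerLeft_id]
  inj_prj_ne h := by rw [← whiskerLeft_comp, d.inj_prj_ne h, MonoidalPreadditive.whiskerLeft_zero]
  total := by
    have h : ∀ j, K ◁ d.prj j ≫ K ◁ d.inj j = K ◁ (d.prj j ≫ d.inj j) := fun j =>
      (whiskerLeft_comp _ _ _).symm
    simp only [h]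
    rw [← whiskerLeft_sum, d.total, whiskerLeft_id]

theorem whiskerLeft_zsmul' (K : C) {X Y : C} (n : ℤ) (f : X ⟶ Y) :
    K ◁ (n • f) = n • (K ◁ f) :=
  map_zsmul (AddMonoidHom.mk' (fun f : X ⟶ Y => K ◁ f)
    (fun f g => MonoidalPreadditive.whiskerLeft_add f g)) n f

end Whisker

section Filt

variable {C : Type u} [Category.{v} C] [Preadditive C] [MonoidalCategory C]
  [MonoidalPreadditive C] [SymmetricCategory C] {ι : Type*} [Fintype ι] {A : ι → C} {W : C}

/-- `X : tpow W m ⟶ K ⊗ tpow P m` commutes with the permutations up to words of larger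
weight. -/
structure FiltCmp (K P : C) [MonObj K] (d : Dec A W) (m : ℕ) where
  /-- the comparison -/
  X : tpow W m ⟶ K ⊗ tpow P m
  iso : IsIso (lext X)
  /-- the weight of a word -/
  g : (Fin m → ι) → ℕ
  g_perm (σ : Perm (Fin m)) (w : Fin m → ι) : g (w ∘ ⇑σ⁻¹) = g w
  cmp (σ : Perm (Fin m)) (w u : Fin m → ι) (h : g u ≤ g w) :
    (win d m w ≫ X ≫ K ◁ (perm P m σ : tpow P m ⟶ tpow P m)) ≫ inv (lext X) ≫ K ◁ wpr d m u =
      (win d m w ≫ (perm W m σ : tpow W m ⟶ tpow W m) ≫ X) ≫ inv (lext X) ≫ K ◁ wpr d m u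

attribute [instance] FiltCmp.iso

variable {K P : C} [MonObj K] {d : Dec A W} {m : ℕ} (F : FiltCmp K P d m)

namespace FiltCmp

/-- the operator on `K ⊗ tpow W m` which corresponds to `f` on `K ⊗ tpow P m` -/
noncomputable def conj (f : K ⊗ tpow P m ⟶ K ⊗ tpow P m) : K ⊗ tpow W m ⟶ K ⊗ tpow W m :=
  lext F.X ≫ f ≫ inv (lext F.X)

omit [MonoidalPreadditive C] in
theorem conj_comp (f f' : K ⊗ tpow P m ⟶ K ⊗ tpow P m) :
    F.conj f ≫ F.conj f' = F.conj (f ≫ f') := by
  unfold conj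
  simp

omit [MonoidalPreadditive C] in
theorem conj_zsmul (n : ℤ) (f : K ⊗ tpow P m ⟶ K ⊗ tpow P m) :
    F.conj (n • f) = n • F.conj f := by
  unfold conj
  rw [Preadditive.zsmul_comp, Preadditive.comp_zsmul]

omit [MonoidalPreadditive C] in
theorem conj_sum {J : Type*} (s : Finset J) (f : J → (K ⊗ tpow P m ⟶ K ⊗ tpow P m)) :
    F.conj (∑ j ∈ s, f j) = ∑ j ∈ s, F.conj (f j) := by
  unfold conj
  rw [Preadditive.sum_comp, Preadditive.comp_sum]

omit [MonoidalPreadditive C] in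
theorem eq_zero_of_conj {f : K ⊗ tpow P m ⟶ K ⊗ tpow P m} (h : F.conj f = 0) : f = 0 := by
  have h1 : f = inv (lext F.X) ≫ F.conj f ≫ lext F.X := by
    unfold conj
    simp
  rw [h1, h, Limits.zero_comp, Limits.comp_zero]

omit [MonoidalPreadditive C] in
/-- left linearity of the inverse -/
theorem lext_comp_inv {B : C} (z : B ⟶ K ⊗ tpow P m) :
    lext (z ≫ inv (lext F.X)) = lext z ≫ inv (lext F.X) := by
  rw [← cancel_mono (lext F.X), Category.assoc, IsIso.inv_hom_id, Category.comp_id,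
    ← lext_lext, Category.assoc, IsIso.inv_hom_id, Category.comp_id]

omit [MonoidalPreadditive C] in
/-- the comparison, on `K ⊗ tpow W m` -/
theorem cmp_lext (σ : Perm (Fin m)) (w u : Fin m → ι) (h : F.g u ≤ F.g w) :
    K ◁ win d m w ≫ F.conj (K ◁ (perm P m σ : tpow P m ⟶ tpow P m)) ≫ K ◁ wpr d m u =
      K ◁ win d m w ≫ (K ◁ (perm W m σ : tpow W m ⟶ tpow W m)) ≫ K ◁ wpr d m u := by
  have h1 : lext ((win d m w ≫ F.X ≫ K ◁ (perm P m σ : tpow P m ⟶ tpow P m)) ≫
      inv (lext F.X) ≫ K ◁ wpr d m u) =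
    lext ((win d m w ≫ (perm W m σ : tpow W m ⟶ tpow W m) ≫ F.X) ≫
      inv (lext F.X) ≫ K ◁ wpr d m u) := congrArg (fun z => lext z) (F.cmp σ w u h)
  have e1 : lext (win d m w ≫ F.X ≫ K ◁ (perm P m σ : tpow P m ⟶ tpow P m)) =
      K ◁ win d m w ≫ lext F.X ≫ K ◁ (perm P m σ : tpow P m ⟶ tpow P m) := by
    rw [lext_pre, lext_comp]
  have e2 : lext (win d m w ≫ (perm W m σ : tpow W m ⟶ tpow W m) ≫ F.X) =
      K ◁ win d m w ≫ K ◁ (perm W m σ : tpow W m ⟶ tpow W m) ≫ lext F.X := by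
    rw [lext_pre, lext_pre]
  rw [← Category.assoc (win d m w ≫ _), ← Category.assoc (win d m w ≫ _),
    lext_comp, lext_comp, F.lext_comp_inv, F.lext_comp_inv, e1, e2] at h1
  unfold conj
  simpa using h1

theorem cmp_sum (Y : MonoidAlgebra ℤ (Perm (Fin m))) (w u : Fin m → ι) (h : F.g u ≤ F.g w) :
    K ◁ win d m w ≫ F.conj (K ◁ (permAlg P m Y : tpow P m ⟶ tpow P m)) ≫ K ◁ wpr d m u =
      K ◁ win d m w ≫ (K ◁ (permAlg W m Y : tpow W m ⟶ tpow W m)) ≫ K ◁ wpr d m u := by
  rw [permAlg_eq_sum, permAlg_eq_sum, whiskerLeft_sum, whiskerLeft_sum, F.conj_sum,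
    Preadditive.sum_comp, Preadditive.comp_sum, Preadditive.sum_comp, Preadditive.comp_sum]
  refine Finset.sum_congr rfl fun σ _ => ?_
  rw [whiskerLeft_zsmul', whiskerLeft_zsmul', F.conj_zsmul, Preadditive.zsmul_comp,
    Preadditive.comp_zsmul, Preadditive.zsmul_comp, Preadditive.comp_zsmul, F.cmp_lext σ w u h]

/-- **An element of the group algebra which acts as `0` on the power of the sum of the letters
acts as `0` on the `K`-homology of the power.** -/
theorem kill (F : FiltCmp K P d m) {Y : MonoidAlgebra ℤ (Perm (Fin m))} {n : ℤ} (hY : Y * Y = n • Y)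
    (hW : (permAlg W m Y : tpow W m ⟶ tpow W m) = 0)
    (hn : ∀ f : K ⊗ tpow W m ⟶ K ⊗ tpow W m, n • f = 0 → f = 0) :
    K ◁ (permAlg P m Y : tpow P m ⟶ tpow P m) = 0 := by
  apply F.eq_zero_of_conj
  refine eq_zero_of_tri ((d.pow m).tens K) (g := F.g) (fun w u h => ?_) (n := n) ?_ hn
  · change K ◁ win d m w ≫ F.conj (K ◁ (permAlg P m Y : tpow P m ⟶ tpow P m)) ≫
      K ◁ wpr d m u = 0
    rw [F.cmp_sum Y w u h, hW, MonoidalPreadditive.whiskerLeft_zero, Limits.zero_comp,
      Limits.comp_zero]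
  · rw [F.conj_comp, ← whiskerLeft_comp, ← permAlg_mul, hY, ← F.conj_zsmul,
      ← whiskerLeft_zsmul']
    congr 2
    exact map_zsmul (permAlg P m) n Y

/-- **If an element of the group algebra acts as `0` on the `K`-homology of the power then its
coefficients between words with letters of braiding `1` vanish.** -/
theorem survive (F : FiltCmp K P d m) {Y : MonoidAlgebra ℤ (Perm (Fin m))}
    (h0 : K ◁ (permAlg P m Y : tpow P m ⟶ tpow P m) = 0) {w : Fin m → ι}
    (hβ : ∀ a, (β_ (A (w a)) (A (w a))).hom = 𝟙 _) (σ₀ : Perm (Fin m)) [DecidableEq ι] :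
    (∑ σ ∈ Finset.univ.filter (fun σ : Perm (Fin m) => w ∘ ⇑σ⁻¹ = w ∘ ⇑σ₀⁻¹), Y.coeff σ) •
      𝟙 (K ⊗ wt A m w) = 0 := by
  have h1 := F.cmp_sum Y w (w ∘ ⇑σ₀⁻¹) (F.g_perm σ₀ w).le
  rw [h0] at h1
  have h2 : F.conj (0 : K ⊗ tpow P m ⟶ K ⊗ tpow P m) = 0 := by
    unfold conj
    rw [Limits.zero_comp, Limits.comp_zero]
  rw [h2, Limits.zero_comp, Limits.comp_zero, ← whiskerLeft_comp, ← whiskerLeft_comp,
    win_permAlg_wpr d hβ Y σ₀, whiskerLeft_zsmul'] at h1
  have h3 := congrArg (fun z => z ≫ K ◁ inv (wperm d σ₀ w)) h1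
  simp only [Limits.zero_comp, Preadditive.zsmul_comp] at h3
  rw [← whiskerLeft_comp, IsIso.hom_inv_id, whiskerLeft_id] at h3
  exact h3.symm

end FiltCmp

/-! ### the power of the sum of the letters -/

/-- **The Young symmetrizer vanishes on the powers of a sum of few letters.** `hM` is the
combinatorial statement for the group algebra. -/
theorem permAlg_eq_zero (d : Dec A W) {m : ℕ} {Y : MonoidAlgebra ℤ (Perm (Fin m))}
    {par : ι → Bool} (hA : ∀ j, IsSgn (if par j then -1 else 1) (A j))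
    (hM : ∀ (w : Fin m → ι) (Z : Type v) [AddCommGroup Z] (θ : Perm (Fin m) → Z),
      (∀ σ a b, a ≠ b → w a = w b →
        θ (σ * swap a b) = if par (w a) then - θ σ else θ σ) →
      ∑ σ, Y.coeff σ • θ σ = 0) :
    (permAlg W m Y : tpow W m ⟶ tpow W m) = 0 := by
  apply (d.pow m).hom_ext
  intro w
  rw [permAlg_eq_sum, Preadditive.comp_sum, Limits.comp_zero]
  refine Eq.trans (Finset.sum_congr rfl fun σ _ => Preadditive.comp_zsmul _ _ _) ?_
  refine hM w _ (fun σ => (d.pow m).inj w ≫ (perm W m σ : tpow W m ⟶ tpow W m)) ?_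
  intro σ a b hab hw
  change win d m w ≫ (perm W m (σ * swap a b) : tpow W m ⟶ tpow W m) =
    if par (w a) then - (win d m w ≫ (perm W m σ : tpow W m ⟶ tpow W m)) else
      win d m w ≫ (perm W m σ : tpow W m ⟶ tpow W m)
  rw [win_mul_swap d hab hw (hA (w a)) σ]
  split_ifs
  · rw [neg_one_zsmul]
  · rw [one_zsmul]

open Vale.Agent.P093.N.Young in
/-- **The Young symmetrizer kills the `K`-homology of the power of an object of small rank.** -/
theorem FiltCmp.killY {K P : C} [MonObj K] {d : Dec A W} {p : ℕ} (hp : p.Prime) {r : ℕ}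
    (F : FiltCmp K P d (M p r)) {par : ι → Bool}
    (hA : ∀ j, IsSgn (if par j then -1 else 1) (A j)) (hr : 2 * Fintype.card ι + 1 ≤ r)
    (hn : ∀ f : K ⊗ tpow W (M p r) ⟶ K ⊗ tpow W (M p r), nY p r • f = 0 → f = 0) :
    K ◁ (permAlg P (M p r) (Y p r) : tpow P (M p r) ⟶ tpow P (M p r)) = 0 :=
  F.kill (Y_mul_Y p r)
    (permAlg_eq_zero d hA fun w _ _ θ h => H169.kill_sum hp w par θ h hr) hn

open Vale.Agent.P093.N.Young in
/-- **The Young symmetrizer does not kill the `K`-homology of the power of an object of large even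
rank.** -/
theorem FiltCmp.surviveY {K P : C} [MonObj K] {d : Dec A W} {p : ℕ} (hp : p.Prime) {r : ℕ}
    (F : FiltCmp K P d (M p r)) {s : Fin r → ι} (hs : Function.Injective s)
    (hA : ∀ a, IsSgn 1 (A (s a)))
    (hK : ∀ (c : ℤ) (w : Fin (M p r) → ι), (∀ i, w i ∈ Set.range s) → ¬ (p : ℤ) ∣ c →
      c • 𝟙 (K ⊗ wt A (M p r) w) ≠ 0) :
    K ◁ (permAlg P (M p r) (Y p r) : tpow P (M p r) ⟶ tpow P (M p r)) ≠ 0 := by
  classical
  intro h0
  obtain ⟨w, w', hw, -, hc⟩ := H169.survive_sum hp hs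
  obtain ⟨σ₀, hσ⟩ : ∃ σ₀ : Perm (Fin (M p r)), w ∘ ⇑σ₀⁻¹ = w' := by
    by_contra hne
    apply hc
    rw [Finset.filter_false_of_mem (fun σ _ h => hne ⟨σ, h⟩), Finset.sum_empty]
    exact dvd_zero _
  subst hσ
  refine hK _ w hw hc ?_
  have h1 := F.survive h0 (w := w) (fun a => ?_) σ₀
  · convert h1
  · obtain ⟨b, hb⟩ := hw a
    have := hA b
    rw [hb] at this
    rw [this, one_zsmul]

end Filt

end Vale.Agent.P241.H568
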