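import Vale.Agent.P241.H963.Fil
import Vale.Agent.P241.H568.Kill

/-!
# P241, block YK: assembly of the filtered comparison

`filtCmp` : letters over a tower of `P` whose sum `x : W ⟶ K ⊗ P` is a `K`-equivalence, and the
estimate for the coordinates of the elements of the image filtration, give a `FiltCmp`.
-/

open CategoryTheory MonoidalCategory Equiv

set_option linter.unusedSectionVars false

universe v u

namespace Vale.Agent.P241.H568

open Vale.Agent.P093.Cox Vale.Agent.P093.SymPow Vale.Agent.P251.M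

section Word

variable {C : Type u} [Category.{v} C] [MonoidalCategory C] {ι : Type*}

/-- the two forms of the word objects -/
def wtob (A : ι → C) : (m : ℕ) → (w : Fin m → ι) → (wt A m w ⟶ YK.wob A m w)
  | 0, _ => 𝟙 (𝟙_ C)
  | m + 1, w => 𝟙 (A (w 0)) ⊗ₘ wtob A m (Fin.tail w)

/-- the inverse of `wtob` -/
def wobt (A : ι → C) : (m : ℕ) → (w : Fin m → ι) → (YK.wob A m w ⟶ wt A m w)
  | 0, _ => 𝟙 (𝟙_ C)
  | m + 1, w => 𝟙 (A (w 0)) ⊗ₘ wobt A m (Fin.tail w)

theorem wtob_wobt (A : ι → C) (m : ℕ) (w : Fin m → ι) : wtob A m w ≫ wobt A m w = 𝟙 _ := by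
  induction m with
  | zero => exact Category.id_comp _
  | succ m ih =>
    change (𝟙 (A (w 0)) ⊗ₘ wtob A m (Fin.tail w)) ≫ (𝟙 (A (w 0)) ⊗ₘ wobt A m (Fin.tail w)) = _
    rw [tensorHom_comp_tensorHom, ih, Category.comp_id, id_tensorHom_id]

theorem wobt_wtob (A : ι → C) (m : ℕ) (w : Fin m → ι) : wobt A m w ≫ wtob A m w = 𝟙 _ := by
  induction m with
  | zero => exact Category.id_comp _
  | succ m ih =>
    change (𝟙 (A (w 0)) ⊗ₘ wobt A m (Fin.tail w)) ≫ (𝟙 (A (w 0)) ⊗ₘ wtob A m (Fin.tail w)) =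
      𝟙 (A (w 0) ⊗ YK.wob A m (fun i => w i.succ))
    rw [tensorHom_comp_tensorHom, ih, Category.comp_id]
    exact id_tensorHom_id _ _

variable [Preadditive C] [Fintype ι] {A : ι → C} {W : C} (d : Dec A W)

theorem wtob_wto (m : ℕ) (w : Fin m → ι) : wtob A m w ≫ YK.wto d.inj m w = win d m w := by
  induction m with
  | zero => exact Category.id_comp _
  | succ m ih =>
    change (𝟙 (A (w 0)) ⊗ₘ wtob A m (Fin.tail w)) ≫ (d.inj (w 0) ⊗ₘ YK.wto d.inj m _) =
      d.inj (w 0) ⊗ₘ win d m (Fin.tail w)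
    rw [tensorHom_comp_tensorHom, Category.id_comp]
    congr 1
    exact ih (Fin.tail w)

end Word

section Asm

variable {C : Type u} [Category.{v} C] [Preadditive C] [MonoidalCategory C]
  [MonoidalPreadditive C] [SymmetricCategory C] {ι : Type} [Fintype ι] {W : C}
  {K P : C} [MonObj K]

/-- **The filtered comparison** from the letters, the `K`-equivalence `x` and the coordinates of
the elements of the image filtration. -/
noncomputable def filtCmp (L : YK.Letters K ι P) (d : Dec L.A W) (x : W ⟶ K ⊗ P)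
    (hx : ∀ i, d.inj i ≫ x = L.z i) [IsIso (YK.lext x)] (m : ℕ)
    (hB : ∀ (n : ℕ) (B : C) (z : B ⟶ K ⊗ tpow P m), z ∈ YK.ImFil K L.j m n B →
      ∀ u : Fin m → ι, ∑ k, L.r (u k) < n →
        z ≫ inv (YK.lext (YK.pw x m)) ≫ K ◁ wpr d m u = 0) :
    FiltCmp K P d m where
  X := YK.pw x m
  iso := inferInstance
  g w := ∑ k, L.r (w k)
  g_perm σ w := Equiv.sum_comp σ⁻¹ (fun k => L.r (w k))
  cmp σ w u h := by
    have h1 := YK.ImFil_pre L.j (wtob L.A m w) (L.perm_mem d.inj x hx m σ w)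
    have h2 := hB _ _ _ h1 u (by omega)
    rw [← Category.assoc (wtob L.A m w), wtob_wto d m w, Preadditive.comp_sub,
      Preadditive.sub_comp, sub_eq_zero] at h2
    exact h2

end Asm

section Triang

open Limits Pretriangulated Vale.Agent.P251.T Vale.Agent.P251.S Vale.Agent.P093.N.Young

/-- multiplication by an integer which is invertible on `K` is injective on the maps to `K ⊗ Z` -/
theorem eq_zero_of_zsmul {C : Type u} [Category.{v} C] [Preadditive C] [MonoidalCategory C]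
    [MonoidalPreadditive C] {K : C} {n : ℤ} (hs : ∃ s : K ⟶ K, n • s = 𝟙 K) {Y Z : C}
    {f : Y ⟶ K ⊗ Z} (h : n • f = 0) : f = 0 := by
  obtain ⟨s, hs⟩ := hs
  have h1 : n • (s ▷ Z) = 𝟙 (K ⊗ Z) := by
    rw [← zsmul_whiskerRight', hs, id_whiskerRight]
  rw [← Category.comp_id f, ← h1, Preadditive.comp_zsmul, ← Preadditive.zsmul_comp, h,
    zero_comp]

variable {T : Type u} [Category.{v} T] [Preadditive T] [HasZeroObject T] [HasShift T ℤ]
  [∀ n : ℤ, (shiftFunctor T n).Additive] [Pretriangulated T]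
  [MonoidalCategory T] [SymmetricCategory T] [TensorTriangulated T] {ι : Type}

theorem isZero_of_tensor_sphere {G A : T} {n : ℤ} (e : A ≅ (𝟙_ T)⟦n⟧) (h : IsZero (G ⊗ A)) :
    IsZero G := by
  have h1 : IsZero (G⟦n⟧) := h.of_iso ((tensorSph n G).symm ≪≫ whiskerLeftIso G e.symm)
  have h2 : IsZero ((G⟦n⟧)⟦-n⟧) := (shiftFunctor T (-n)).map_isZero h1
  exact h2.of_iso ((shiftShiftNeg G n).symm)

theorem isZero_of_tensor_wt {A : ι → T} {e : ι → ℤ} (hA : ∀ i, Nonempty (A i ≅ (𝟙_ T)⟦e i⟧))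
    (m : ℕ) (w : Fin m → ι) : ∀ G : T, IsZero (G ⊗ wt A m w) → IsZero G := by
  induction m with
  | zero => exact fun G h => h.of_iso (ρ_ G).symm
  | succ m ih =>
    intro G h
    have h1 : IsZero ((G ⊗ A (w 0)) ⊗ wt A m (Fin.tail w)) := h.of_iso (α_ _ _ _)
    exact isZero_of_tensor_sphere (hA (w 0)).some (ih (Fin.tail w) _ h1)

theorem isSgn_letter {A : ι → T} {e : ι → ℤ} (hA : ∀ i, Nonempty (A i ≅ (𝟙_ T)⟦e i⟧)) (i : ι) :
    IsSgn (if decide (Odd (e i)) then -1 else 1) (A i) := by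
  obtain ⟨f⟩ := hA i
  by_cases h : Odd (e i)
  · rw [if_pos (by simpa using h)]
    exact (isSgn_sphere_odd h).iso f.symm
  · rw [if_neg (by simpa using h)]
    exact (isSgn_sphere_even (Int.not_odd_iff_even.1 h)).iso f.symm

variable [Fintype ι] {W K P : T} [MonObj K]

/-- **KILL**: the Young symmetrizer kills the `K`-homology of the power of an object of small
`K`-rank. -/
theorem young_kill {p : ℕ} (hp : p.Prime) {r : ℕ} {A : ι → T} {e : ι → ℤ}
    (hA : ∀ i, Nonempty (A i ≅ (𝟙_ T)⟦e i⟧)) {d : Dec A W} (F : FiltCmp K P d (M p r))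
    (hs : ∀ n : ℤ, ¬ (p : ℤ) ∣ n → ∃ s : K ⟶ K, n • s = 𝟙 K) (hr : 2 * Fintype.card ι + 1 ≤ r) :
    K ◁ (permAlg P (M p r) (Y p r) : tpow P (M p r) ⟶ tpow P (M p r)) = 0 :=
  F.killY hp (fun i => isSgn_letter hA i) hr
    (fun _ h => eq_zero_of_zsmul (hs _ (not_dvd_nY hp r)) h)

/-- **SURVIVE**: the Young symmetrizer does not kill the `K`-homology of the power of an object of
large even `K`-rank. -/
theorem young_survive {p : ℕ} (hp : p.Prime) {r : ℕ} {A : ι → T} {e : ι → ℤ}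
    (hA : ∀ i, Nonempty (A i ≅ (𝟙_ T)⟦e i⟧)) {d : Dec A W} (F : FiltCmp K P d (M p r))
    (hs : ∀ n : ℤ, ¬ (p : ℤ) ∣ n → ∃ s : K ⟶ K, n • s = 𝟙 K) (hK : ¬ IsZero K)
    (hr : r ≤ Nat.card {i // Even (e i)}) :
    K ◁ (permAlg P (M p r) (Y p r) : tpow P (M p r) ⟶ tpow P (M p r)) ≠ 0 := by
  classical
  rw [Nat.card_eq_fintype_card] at hr
  obtain ⟨f⟩ := Function.Embedding.nonempty_of_card_le
    (α := Fin r) (β := {i // Even (e i)}) (by rwa [Fintype.card_fin])
  refine F.surviveY hp (s := fun a => (f a).1)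
    (fun a b h => f.injective (Subtype.ext h)) (fun a => ?_) ?_
  · obtain ⟨g⟩ := hA (f a).1
    exact (isSgn_sphere_even (f a).2).iso g.symm
  · intro c w _ hc h0
    apply hK
    have h1 : 𝟙 (K ⊗ wt A (M p r) w) = 0 := eq_zero_of_zsmul (hs c hc) h0
    exact isZero_of_tensor_wt hA (M p r) w K ((IsZero.iff_id_eq_zero _).2 h1)

end Triang

end Vale.Agent.P241.H568
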