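import Vale.Agent.P241.H963.B2
import Vale.Agent.P241.H568.Asm

/-!
# P241, block YK: KILL and SURVIVE for an adapted basis

`kill_of_adapted`, `survive_of_adapted` : the action of the Young symmetrizer on the
`K`-homology of the power of an object `P` with an adapted basis.
-/

open CategoryTheory MonoidalCategory Limits Pretriangulated
open Vale.Agent.P251.T Vale.Agent.P093.SymPow Vale.Agent.P093.N.Young

set_option linter.unusedSectionVars false

universe v u

namespace Vale.Agent.P241.H568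

/-- the filtered comparison of an adapted basis -/
noncomputable def filtCmpOf {C : Type u} [Category.{v} C] [Preadditive C] [MonoidalCategory C]
    [MonoidalPreadditive C] [SymmetricCategory C] {ι : Type} [Fintype ι] {W K P : C} [MonObj K]
    {L : YK.Letters K ι P} {d : Dec L.A W} {x : W ⟶ K ⊗ P} (H : L.Adapted d x) (m : ℕ) :
    FiltCmp K P d m :=
  haveI := H.iso
  filtCmp L d x H.inj_x m fun _ _ _ hz u h => H.coord_zero hz u h

variable {T : Type u} [Category.{v} T] [Preadditive T] [HasZeroObject T] [HasShift T ℤ]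
  [∀ n : ℤ, (shiftFunctor T n).Additive] [Pretriangulated T]
  [MonoidalCategory T] [SymmetricCategory T] [TensorTriangulated T] {ι : Type} [Fintype ι]
  {K P W : T} [MonObj K] {L : YK.Letters K ι P} {d : Dec L.A W} {x : W ⟶ K ⊗ P}

/-- **KILL** -/
theorem kill_of_adapted {p : ℕ} (hp : p.Prime) {r : ℕ} (H : L.Adapted d x) {e : ι → ℤ}
    (hA : ∀ i, Nonempty (L.A i ≅ (𝟙_ T)⟦e i⟧))
    (hs : ∀ n : ℤ, ¬ (p : ℤ) ∣ n → ∃ s : K ⟶ K, n • s = 𝟙 K) (hr : 2 * Fintype.card ι + 1 ≤ r) :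
    K ◁ (permAlg P (M p r) (Y p r) : tpow P (M p r) ⟶ tpow P (M p r)) = 0 :=
  young_kill hp hA (filtCmpOf H (M p r)) hs hr

/-- **SURVIVE** -/
theorem survive_of_adapted {p : ℕ} (hp : p.Prime) {r : ℕ} (H : L.Adapted d x) {e : ι → ℤ}
    (hA : ∀ i, Nonempty (L.A i ≅ (𝟙_ T)⟦e i⟧))
    (hs : ∀ n : ℤ, ¬ (p : ℤ) ∣ n → ∃ s : K ⟶ K, n • s = 𝟙 K) (hK : ¬ IsZero K)
    (hr : r ≤ Nat.card {i // Even (e i)}) :
    K ◁ (permAlg P (M p r) (Y p r) : tpow P (M p r) ⟶ tpow P (M p r)) ≠ 0 :=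
  young_survive hp hA (filtCmpOf H (M p r)) hs hK hr

end Vale.Agent.P241.H568
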