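import Vale.Agent.P241.H963.Adapt
import Vale.Agent.P241.KR.Defs

/-!
# P241, block YK: the adapted basis as a `KBasis`

`kbOfTower` : the letters of a tower form a `KBasis`, with the same degrees.
-/

open CategoryTheory MonoidalCategory Limits Pretriangulated
open Vale.Agent.P251.T Vale.Agent.P241.YK Vale.Agent.P241.H169

set_option linter.unusedSectionVars false

universe v u

namespace Vale.Agent.P241.H568

variable {T : Type u} [Category.{v} T] [Preadditive T] [HasZeroObject T] [HasShift T ℤ]
  [∀ n : ℤ, (shiftFunctor T n).Additive] [Pretriangulated T]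
  [MonoidalCategory T] [SymmetricCategory T] [TensorTriangulated T]
  {K : T} [MonObj K] {n : ℕ} (t : Tower T n)

/-- **The letters of a tower are a basis of the `K`-homology of its top.** -/
noncomputable def kbOfTower (hK : SphK K) : KR.KBasis K (t.E 0) (JI t K) where
  e i := i.e
  x i := i.z
  bij j := by
    constructor
    · intro c c' h
      funext i
      have h1 := coeff_eq_zero hK j (fun i => c i - c' i) (by
        simp only [Preadditive.sub_comp, Finset.sum_sub_distrib]
        exact sub_eq_zero.2 h) i
      exact sub_eq_zero.1 h1
    · intro y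
      obtain ⟨c, -, hc⟩ := exists_coeff hK 0 j y
      refine ⟨c, ?_⟩
      have h1 : K ◁ tj t 0 = 𝟙 (K ⊗ t.E 0) := whiskerLeft_id _ _
      rw [h1, Category.comp_id] at hc
      exact hc.symm

@[simp] theorem kbOfTower_e (hK : SphK K) (i : JI t K) : (kbOfTower t hK).e i = i.e := rfl

end Vale.Agent.P241.H568
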